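import Vale.Agent.P273.H132.NeckRem
import Vale.Agent.P273.H132.LimBase
import Vale.Agent.P273.H422.GenAdm

/-!
# P273, crew ASY0 (T3a): the field `lim0` of `AsyQ Neck` for the explicit family `lgU`

Classes that are constant on the three pairs: along the dilation the legs of a mark of a neck at
the angles of the gaps of `B` and at the base angles are `o(1 / N)`.
-/

noncomputable section

namespace Vale.Agent.P273.H676

open Set Filter H681 H95 H732 H562 H803 H545 H722 H722.KapData H132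
open scoped Topology ContDiff

section Base

variable (R : H95.Region) (m : ∀ k, Fin (R.n k + 1))

theorem bP_dpt (B : Set (W R m).Fr) (N : ℝ) (p : Co R m) :
    bP R m ((W R m).dpt B N p) = bN p.2.2.1 p.2.2.2.1 (2 * Real.log 16) N := rfl

theorem bC_ph (f : (W R m).Fr) : bC R m ((W R m).vec (.ph f)) = 0 := rfl

theorem bC_al (l : Fin 3) : bC R m ((W R m).vec (.al l)) = ea l := rfl

end Base

theorem btF_zero {ξ : Fin 6 → ℝ} (h : ∀ l, bt ξ l = 0) : btF ξ = 0 := funext h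

section Rem

variable {R : H95.Region} (m : ∀ k, Fin (R.n k + 1)) {j : L} {k : Fin 3}

theorem SC_ph (h : R.pl j = Sum.inl k) (f : (W R m).Fr) :
    SC m h ((W R m).vec (.ph f)) = 0 := by
  have e : wreg.LX R.Cm R.n m k (rkF R h) ((W R m).vec (.ph f)) =
      ((if f.1 ∈ wreg.bef R.n k (rkF R h) then 1 else 0) -
        (if (W R m).last ((W R m).nk f.1) ∈ wreg.bef R.n k (rkF R h) then 1 else 0)) *
          Complex.I := (W R m).lS_vec_ph _ f
  rw [SC_apply, e]
  split_ifs <;> simp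

theorem SC_al (h : R.pl j = Sum.inl k) (l : Fin 3) :
    SC m h ((W R m).vec (.al l)) = 0 := by
  have e : wreg.LX R.Cm R.n m k (rkF R h) ((W R m).vec (.al l)) =
      (if (W R m).last l ∈ wreg.bef R.n k (rkF R h) then 1 else 0) * Complex.I :=
    (W R m).lS_vec_al _ l
  rw [SC_apply, e]
  split_ifs <;> simp

/-- the polyhedral part at an angle, `β = 0` -/
theorem UPn_ph (U : UData) {ξ : Fin 6 → ℝ} (hb : btF ξ = 0) (h : R.pl j = Sum.inl k)
    (P : Co R m) (f : (W R m).Fr) : UPn m U ξ h P ((W R m).vec (.ph f)) = 0 := by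
  rw [UPn_apply, SC_ph, bC_ph, hb, map_zero]
  simp

/-- the polyhedral part at a base angle, `β = 0` -/
theorem UPn_al (U : UData) {ξ : Fin 6 → ℝ} (hb : btF ξ = 0) (h : R.pl j = Sum.inl k)
    (P : Co R m) (l : Fin 3) : UPn m U ξ h P ((W R m).vec (.al l)) =
      (1 - 2 * SX m h P / (bP R m P).1 k) *
        fderiv ℝ (fun q => U.D.wf (xeF ξ) 0 q k) (bP R m P) (ea l) := by
  rw [UPn_apply, SC_al, bC_al, hb]
  simp [ea]

/-- `N ‖cc‖` is bounded, `β = 0` -/
theorem tendsto_div_mu' {y α : Fin 3 → ℝ} {y0 c : ℝ} (hd : Dil y y0) (a : ℝ) :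
    Tendsto (fun N : ℝ => N * (a / (N * y0 + c))) atTop (𝓝 (a * (1 / y0))) := by
  obtain ⟨l, hl⟩ := hd.ex
  have h1 := (tendsto_div_len (α := α) (c := c) hd l).const_mul a
  rw [hl] at h1
  refine h1.congr fun N => ?_
  have e : (bN y α c N).1 l = N * y0 + c := by
    show N * y l + c = _
    rw [hl]
  rw [e]
  ring

/-- **the remainder of the leg at a dead direction, scale `N`, `β = 0`** -/
theorem tendsto_rem (U : UData) {S : L → Bool} (hS : FarOk R S) {B : Set (W R m).Fr}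
    {p : Co R m} (hp : Gen R m S B p) (hy : ∀ k, 0 < p.2.2.1 k) {y0 : ℝ}
    (hd : Dil p.2.2.1 y0) (h : R.pl j = Sum.inl k) {ξ : Fin 6 → ℝ} (hb : btF ξ = 0)
    {d : (W R m).Dir R.Cm} (hdd : (W R m).Dead B d)
    (h1 : Tendsto (fun N : ℝ => N * ‖dep (bN p.2.2.1 p.2.2.2.1 (2 * Real.log 16) N)
      (bC R m ((W R m).vec d))‖) atTop (𝓝 0))
    (h2 : Tendsto (fun N : ℝ => N * ‖ccD U.D (xeF ξ) 0
      (bN p.2.2.1 p.2.2.2.1 (2 * Real.log 16) N) (bC R m ((W R m).vec d))‖) atTop (𝓝 0)) :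
    Tendsto (fun N : ℝ => N * (fderiv ℝ (UNp m U ξ h) ((W R m).dpt B N p) ((W R m).vec d) -
      UPn m U ξ h ((W R m).dpt B N p) ((W R m).vec d))) atTop (𝓝 0) := by
  have E1 := H422.gen_adm R m S hS B p hp hy 1
  have E2 := eventually_big_bN (α := p.2.2.2.1) (c := 2 * Real.log 16) U.D hd
  have E3 := (tendsto_ep (α := p.2.2.2.1) (c := 2 * Real.log 16) hd).eventually_lt_const U.ρ_pos
  have E4 := norm_cc_zero_le (α := p.2.2.2.1) (c := 2 * Real.log 16) U.D hd (xeF ξ)
  have hl : (W R m).Lim atTop B (fun N : ℝ => (W R m).dpt B N p) p :=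
    (W R m).lim_dpt B tendsto_id hp.1
  have t1 : Tendsto (fun N : ℝ => ‖(W R m).dpsi ((W R m).dpt B N p) ((W R m).vec d)‖) atTop
      (𝓝 0) := by
    have := (hl.dpsi d).norm
    rwa [(W R m).vlim_dead hdd, norm_zero] at this
  have t2 := tendsto_div_mu' (α := p.2.2.2.1) (c := 2 * Real.log 16) hd
    (U.D.A0 ‖p.2.2.2.1‖ * sz (xeF ξ) 0)
  have t3 := tendsto_div_mu (c := 2 * Real.log 16) hd (U.D.A0 ‖p.2.2.2.1‖ * sz (xeF ξ) 0)
  have hA := U.A_nonneg
  have t4 := ((t2.mul (t1.const_mul (4 * nG R))).add ((t3.mul h1).add h2)).const_mul (2 * U.A)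
  simp only [mul_zero, add_zero] at t4
  refine squeeze_zero_norm' ?_ t4
  filter_upwards [E1, E2, E3, E4, eventually_ge_atTop 0] with N a1 a2 a3 a4 a5
  have hul : ∀ k, 0 ≤ (W R m).ul ((W R m).dpt B N p) k := fun k =>
    (W R m).ul_nonneg a1.1 k (by have := a1.2.1 k; linarith)
  have b1 := UNp_rem m U (P := (W R m).dpt B N p) a2 a3 a1.1 hul h ξ ((W R m).vec d)
  rw [bP_dpt, hb] at b1
  rw [Real.norm_eq_abs, abs_mul, abs_of_nonneg a5]
  set C := U.D.A0 ‖p.2.2.2.1‖ * sz (xeF ξ) 0 / (N * y0 + 2 * Real.log 16)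
  set q := ‖(W R m).dpsi ((W R m).dpt B N p) ((W R m).vec d)‖
  set e := ‖dep (bN p.2.2.1 p.2.2.2.1 (2 * Real.log 16) N) (bC R m ((W R m).vec d))‖
  set g := ‖ccD U.D (xeF ξ) 0 (bN p.2.2.1 p.2.2.2.1 (2 * Real.log 16) N)
    (bC R m ((W R m).vec d))‖
  have hq : 0 ≤ q := norm_nonneg _
  have he : 0 ≤ e := norm_nonneg _
  have hn := nG_nonneg R
  have hC : 0 ≤ C := (norm_nonneg _).trans a4
  have b2 : 2 * U.A * ‖cc U.D (xeF ξ) 0 (bN p.2.2.1 p.2.2.2.1 (2 * Real.log 16) N)‖ *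
      (4 * nG R * q) ≤ 2 * U.A * C * (4 * nG R * q) := by gcongr
  have b3 : 2 * U.A * (‖cc U.D (xeF ξ) 0 (bN p.2.2.1 p.2.2.2.1 (2 * Real.log 16) N)‖ * e + g) ≤
      2 * U.A * (C * e + g) := by gcongr
  calc N * |fderiv ℝ (UNp m U ξ h) ((W R m).dpt B N p) ((W R m).vec d) -
      UPn m U ξ h ((W R m).dpt B N p) ((W R m).vec d)|
      ≤ N * (2 * U.A * C * (4 * nG R * q) + 2 * U.A * (C * e + g)) :=
        mul_le_mul_of_nonneg_left (b1.trans (add_le_add b2 b3)) a5
    _ = _ := by ring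

end Rem

/-- **`lim0` for the marks of the necks** -/
theorem lim0_neck (U : UData) : ∀ R m S, FarOk R S → ∀ (B : Set (W R m).Fr) (p : Co R m),
    Gen R m S B p → (∀ k, 0 < p.2.2.1 k) → ∀ (j : L) (k : Fin 3), R.pl j = Sum.inl k →
    ∀ ξ : Fin 6 → ℝ, IsCl ξ → (∀ l, bt ξ l = 0) →
    (∀ f ∈ B, Tendsto (fun N : ℝ => N * lgU U R m S j ξ ((W R m).dpt B N p)
      ((W R m).vec (.ph f))) atTop (𝓝 0)) ∧
    ∀ l, Tendsto (fun N : ℝ => N * lgU U R m S j ξ ((W R m).dpt B N p)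
      ((W R m).vec (.al l))) atTop (𝓝 0) := by
  intro R m S hS B p hp hy j k h ξ _ hbt
  have hb : btF ξ = 0 := btF_zero hbt
  obtain ⟨y0, hd⟩ := exists_dil hy
  refine ⟨fun f hf => ?_, fun l => ?_⟩
  · have z1 : Tendsto (fun N : ℝ => N * ‖dep (bN p.2.2.1 p.2.2.2.1 (2 * Real.log 16) N)
        (bC R m ((W R m).vec (.ph f)))‖) atTop (𝓝 0) := by
      simp only [bC_ph, map_zero, norm_zero, mul_zero]
      exact tendsto_const_nhds
    have z2 : Tendsto (fun N : ℝ => N * ‖ccD U.D (xeF ξ) 0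
        (bN p.2.2.1 p.2.2.2.1 (2 * Real.log 16) N) (bC R m ((W R m).vec (.ph f)))‖) atTop
        (𝓝 0) := by
      simp only [bC_ph, map_zero, norm_zero, mul_zero]
      exact tendsto_const_nhds
    have h1 := tendsto_rem m U hS hp hy hd h hb (d := .ph f) hf z1 z2
    refine h1.congr fun N => ?_
    rw [UPn_ph m U hb, sub_zero, lgU_neck U R m S h]
  · have z1 : Tendsto (fun N : ℝ => N * ‖dep (bN p.2.2.1 p.2.2.2.1 (2 * Real.log 16) N)
        (bC R m ((W R m).vec (.al l)))‖) atTop (𝓝 0) := by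
      simp only [bC_al]
      exact (tendsto_dep hd l).2
    have z2 : Tendsto (fun N : ℝ => N * ‖ccD U.D (xeF ξ) 0
        (bN p.2.2.1 p.2.2.2.1 (2 * Real.log 16) N) (bC R m ((W R m).vec (.al l)))‖) atTop
        (𝓝 0) := by
      simp only [bC_al]
      refine squeeze_zero' ?_ ?_ (tendsto_xx_a_zero (α := p.2.2.2.1) (c := 2 * Real.log 16) U.D
        hd (xeF ξ) l)
      · filter_upwards [eventually_ge_atTop 0] with N hN
        positivity
      · filter_upwards [eventually_ge_atTop 0] with N hN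
        exact mul_le_mul_of_nonneg_left (norm_ccD_le _ _ _ _ _) hN
    have h1 := tendsto_rem m U hS hp hy hd h hb (d := .al l) trivial z1 z2
    have h2 : Tendsto (fun N : ℝ => N * UPn m U ξ h ((W R m).dpt B N p)
        ((W R m).vec (.al l))) atTop (𝓝 0) := by
      have t1 := (tendsto_wf_a_zero (α := p.2.2.2.1) (c := 2 * Real.log 16) U.D hd (xeF ξ) k
        l).norm
      rw [norm_zero] at t1
      refine squeeze_zero_norm' ?_ t1
      filter_upwards [H422.gen_adm R m S hS B p hp hy 1, eventually_ge_atTop 0] with N a1 a5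
      have hul : ∀ k, 0 ≤ (W R m).ul ((W R m).dpt B N p) k := fun k =>
        (W R m).ul_nonneg a1.1 k (by have := a1.2.1 k; linarith)
      have s0 := SX_nonneg m h a1.1 hul
      have s1 := SX_le m h a1.1 hul
      have s2 : 0 < (bP R m ((W R m).dpt B N p)).1 k := by
        have e1 : (1 : ℝ) ≤ ((W R m).dpt B N p).2.2.1 k := a1.2.1 k
        have e2 := log16_nonneg
        show 0 < ((W R m).dpt B N p).2.2.1 k + 2 * Real.log 16
        linarith
      rw [UPn_al m U hb, bP_dpt, Real.norm_eq_abs, Real.norm_eq_abs, ← mul_assoc,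
        mul_comm N, mul_assoc, abs_mul]
      refine mul_le_of_le_one_left (abs_nonneg _) ?_
      have g1 : 0 ≤ SX m h ((W R m).dpt B N p) / (bP R m ((W R m).dpt B N p)).1 k :=
        div_nonneg s0 s2.le
      have g2 : SX m h ((W R m).dpt B N p) / (bP R m ((W R m).dpt B N p)).1 k ≤ 1 :=
        (div_le_one s2).2 s1
      rw [bP_dpt] at g1 g2
      rw [mul_div_assoc, abs_le]
      constructor <;> linarith
    have h3 := h1.add h2
    rw [add_zero] at h3
    refine h3.congr fun N => ?_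
    rw [lgU_neck U R m S h]
    ring

end Vale.Agent.P273.H676

end
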